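import Mathlib

/-!
# P318, g(n) ≥ (log n)^c: the recursion (3.4) of the code theorem, abstractly
-/

namespace Vale.Agent.P318.H505

section

variable (P : ℕ → ℕ → Prop) (a w α D J A1 B1 A2 B2 : ℕ)

/-- monotonicity in the dimension and the number of views -/
def Mono : Prop := ∀ d d' N N', d' ≤ d → N ≤ N' → P d N → P d' N'

/-- the direct-sum step -/
def DStep : Prop := ∀ c j N, 2 ^ 8 * ((c + 2 * a + 2) * ((2 * w + 1) * (w + 1))) ≤ 2 ^ j → j ≤ J →
  P (c + 2 * a) N → P (2 * c) (2 ^ A1 * (2 ^ j) ^ B1 * (N + 1))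

/-- the tensor step -/
def TStep : Prop := ∀ n j N, 1 ≤ n →
  2 ^ 8 * (n * ((2 * a * n + a + 2) * ((2 * w + 1) * (w + 1)))) ≤ 2 ^ j → j ≤ J →
  P (2 * a * n + a) N → P (n ^ 2) (2 ^ A2 * n * (2 ^ j) ^ B2 * (N + 1))

variable {P a w α D J A1 B1 A2 B2}

private lemma pow_two_double (x : ℕ) : 2 ^ x + 1 ≤ 2 ^ (x + 1) := by
  have := Nat.one_le_two_pow (n := x)
  rw [pow_succ]; omega

/-- direct-sum phase -/
lemma rec_dsum (hm : Mono P) (hbase : P D 1) (hD : 4 * a + 1 ≤ D) (hds : DStep P a w J A1 B1)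
    (ha : 3 * a ≤ 2 ^ α) (hw : 2 * w + 1 ≤ a) (hJ : 6 * α + 18 ≤ J) :
    ∀ s, s ≤ 4 * α + 8 → P (2 ^ s + 4 * a) (2 ^ ((A1 + B1 * (6 * α + 18) + 1) * s)) := by
  intro s
  induction s with
  | zero =>
    intro _
    exact hm D _ 1 _ (by simpa [add_comm] using hD) (by simp) hbase
  | succ s ih =>
    intro hs
    have h1 := ih (by omega)
    have h2 : 2 ^ s + 4 * a = (2 ^ s + 2 * a) + 2 * a := by ring
    rw [h2] at h1
    have hsz : 2 ^ 8 * (((2 ^ s + 2 * a) + 2 * a + 2) * ((2 * w + 1) * (w + 1))) ≤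
        2 ^ (6 * α + 18) := by
      have e1 : 2 ^ s ≤ 2 ^ (4 * α + 8) := Nat.pow_le_pow_right (by norm_num) (by omega)
      have e2 : 2 ^ α ≤ 2 ^ (4 * α) := Nat.pow_le_pow_right (by norm_num) (by omega)
      have e3 : (2 ^ s + 2 * a) + 2 * a + 2 ≤ 2 ^ (4 * α + 10) := by
        have e4 : 2 ^ (4 * α + 8) = 2 ^ (4 * α) * 256 := by rw [pow_add]; norm_num
        have e5 : 2 ^ (4 * α + 10) = 2 ^ (4 * α) * 1024 := by rw [pow_add]; norm_num
        have e6 := Nat.one_le_two_pow (n := 4 * α)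
        omega
      have e7 : (2 * w + 1) * (w + 1) ≤ 2 ^ (2 * α) := by
        calc (2 * w + 1) * (w + 1) ≤ 2 ^ α * 2 ^ α := Nat.mul_le_mul (by omega) (by omega)
          _ = 2 ^ (2 * α) := by rw [← pow_add]; congr 1; ring
      calc 2 ^ 8 * (((2 ^ s + 2 * a) + 2 * a + 2) * ((2 * w + 1) * (w + 1)))
          ≤ 2 ^ 8 * (2 ^ (4 * α + 10) * 2 ^ (2 * α)) :=
            Nat.mul_le_mul_left _ (Nat.mul_le_mul e3 e7)
        _ = 2 ^ (6 * α + 18) := by rw [← pow_add, ← pow_add]; congr 1; ring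
    have h3 := hds _ (6 * α + 18) _ hsz hJ h1
    refine hm _ _ _ _ ?_ ?_ h3
    · have : 2 ^ (s + 1) = 2 * 2 ^ s := by rw [pow_succ]; ring
      omega
    · set G := A1 + B1 * (6 * α + 18) + 1 with hG
      calc 2 ^ A1 * (2 ^ (6 * α + 18)) ^ B1 * (2 ^ (G * s) + 1)
          ≤ 2 ^ A1 * (2 ^ (6 * α + 18)) ^ B1 * 2 ^ (G * s + 1) :=
            Nat.mul_le_mul_left _ (pow_two_double _)
        _ = 2 ^ (G * (s + 1)) := by
            rw [← pow_mul, ← pow_add, ← pow_add]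
            congr 1
            rw [hG]; ring

/-- the direct-sum recursion alone, for spaces of dimension at most `2 ^ S` -/
theorem rec_dsum_gen (hm : Mono P) (hbase : P D 1) (hD : 4 * a + 1 ≤ D)
    (hds : DStep P a w J A1 B1) (ha : 3 * a ≤ 2 ^ α) (hw : 2 * w + 1 ≤ a) (ha2 : 2 ≤ a) (S : ℕ)
    (hS : α ≤ S) (hJ : S + 2 * α + 10 ≤ J) :
    ∀ s, s ≤ S → P (2 ^ s + 4 * a) (2 ^ ((A1 + B1 * (S + 2 * α + 10) + 1) * s)) := by
  intro s
  induction s with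
  | zero =>
    intro _
    exact hm D _ 1 _ (by simpa [add_comm] using hD) (by simp) hbase
  | succ s ih =>
    intro hs
    have h1 := ih (by omega)
    have h2 : 2 ^ s + 4 * a = (2 ^ s + 2 * a) + 2 * a := by ring
    rw [h2] at h1
    have hsz : 2 ^ 8 * (((2 ^ s + 2 * a) + 2 * a + 2) * ((2 * w + 1) * (w + 1))) ≤
        2 ^ (S + 2 * α + 10) := by
      have e1 : 2 ^ s ≤ 2 ^ S := Nat.pow_le_pow_right (by norm_num) (by omega)
      have e2 : 2 ^ α ≤ 2 ^ S := Nat.pow_le_pow_right (by norm_num) hS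
      have e3 : (2 ^ s + 2 * a) + 2 * a + 2 ≤ 2 ^ (S + 2) := by
        have e5 : 2 ^ (S + 2) = 2 ^ S * 4 := by rw [pow_add]; norm_num
        omega
      have e7 : (2 * w + 1) * (w + 1) ≤ 2 ^ (2 * α) := by
        calc (2 * w + 1) * (w + 1) ≤ 2 ^ α * 2 ^ α := Nat.mul_le_mul (by omega) (by omega)
          _ = 2 ^ (2 * α) := by rw [← pow_add]; congr 1; ring
      calc 2 ^ 8 * (((2 ^ s + 2 * a) + 2 * a + 2) * ((2 * w + 1) * (w + 1)))
          ≤ 2 ^ 8 * (2 ^ (S + 2) * 2 ^ (2 * α)) :=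
            Nat.mul_le_mul_left _ (Nat.mul_le_mul e3 e7)
        _ = 2 ^ (S + 2 * α + 10) := by rw [← pow_add, ← pow_add]; congr 1; ring
    have h3 := hds _ (S + 2 * α + 10) _ hsz hJ h1
    refine hm _ _ _ _ ?_ ?_ h3
    · have : 2 ^ (s + 1) = 2 * 2 ^ s := by rw [pow_succ]; ring
      omega
    · set G := A1 + B1 * (S + 2 * α + 10) + 1 with hG
      calc 2 ^ A1 * (2 ^ (S + 2 * α + 10)) ^ B1 * (2 ^ (G * s) + 1)
          ≤ 2 ^ A1 * (2 ^ (S + 2 * α + 10)) ^ B1 * 2 ^ (G * s + 1) :=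
            Nat.mul_le_mul_left _ (pow_two_double _)
        _ = 2 ^ (G * (s + 1)) := by
            rw [← pow_mul, ← pow_add, ← pow_add]
            congr 1
            rw [hG]; ring

/-- **the recursion (3.4)** -/
theorem rec_main (hm : Mono P) (hbase : P D 1) (hD : 4 * a + 1 ≤ D) (hds : DStep P a w J A1 B1)
    (hts : TStep P a w J A2 B2) (ha : 3 * a ≤ 2 ^ α) (hw : 2 * w + 1 ≤ a) (ha2 : 2 ≤ a) (l0 : ℕ)
    (hJ : 6 * α + 18 ≤ J) (hJ' : l0 + 3 * α + 10 ≤ J) :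
    ∀ l, l ≤ l0 → P (2 ^ l)
      (2 ^ (4 * (A2 + 12 * B2 + 3) * l + 8 * (A1 + 1 + 18 * B1) * (α + 1) ^ 2)) := by
  intro l
  induction l using Nat.strong_induction_on with
  | _ l ih =>
  intro hl
  set A := 4 * (A2 + 12 * B2 + 3) with hA
  set B := 8 * (A1 + 1 + 18 * B1) with hB
  rcases Nat.lt_or_ge l (4 * α + 8) with h | h
  · -- direct sums
    have h1 := rec_dsum hm hbase hD hds ha hw hJ l (by omega)
    refine hm _ _ _ _ (Nat.le_add_right _ _) ?_ h1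
    apply Nat.pow_le_pow_right (by norm_num)
    have h2 : (A1 + B1 * (6 * α + 18) + 1) * l ≤ (A1 + B1 * (6 * α + 18) + 1) * (4 * α + 8) :=
      Nat.mul_le_mul_left _ (by omega)
    have h3 : (A1 + B1 * (6 * α + 18) + 1) ≤ (A1 + 1 + 18 * B1) * (α + 1) := by
      have : (A1 + 1 + 18 * B1) * (α + 1) =
        A1 * α + α + 12 * (B1 * α) + (A1 + B1 * (6 * α + 18) + 1) := by ring
      omega
    calc (A1 + B1 * (6 * α + 18) + 1) * l ≤ (A1 + B1 * (6 * α + 18) + 1) * (4 * α + 8) := h2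
      _ ≤ ((A1 + 1 + 18 * B1) * (α + 1)) * (8 * (α + 1)) := Nat.mul_le_mul h3 (by omega)
      _ = B * (α + 1) ^ 2 := by rw [hB]; ring
      _ ≤ A * l + B * (α + 1) ^ 2 := Nat.le_add_left _ _
  · -- tensor step
    obtain ⟨μ, hμ⟩ : ∃ μ, μ = (l + 1) / 2 := ⟨_, rfl⟩
    have hμ1 : l ≤ 2 * μ := by omega
    have hμ2 : 2 * μ ≤ l + 1 := by omega
    have hlt : μ + α < l := by omega
    have h1 := ih (μ + α) hlt (by omega)
    have hdim : 2 * a * 2 ^ μ + a ≤ 2 ^ (μ + α) := by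
      have e1 : 1 ≤ 2 ^ μ := Nat.one_le_two_pow
      calc 2 * a * 2 ^ μ + a ≤ 2 * a * 2 ^ μ + a * 2 ^ μ :=
            Nat.add_le_add_left (Nat.le_mul_of_pos_right _ e1) _
        _ = 2 ^ μ * (3 * a) := by ring
        _ ≤ 2 ^ μ * 2 ^ α := Nat.mul_le_mul_left _ ha
        _ = 2 ^ (μ + α) := by rw [pow_add]
    have h2 := hm _ _ _ _ hdim le_rfl h1
    have hsz : 2 ^ 8 * (2 ^ μ * ((2 * a * 2 ^ μ + a + 2) * ((2 * w + 1) * (w + 1)))) ≤
        2 ^ (2 * μ + 3 * α + 9) := by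
      have e3 : 2 * a * 2 ^ μ + a + 2 ≤ 2 ^ (μ + α + 1) := by
        have : 2 ≤ 2 ^ (μ + α) := by
          calc 2 = 2 ^ 1 := by norm_num
            _ ≤ 2 ^ (μ + α) := Nat.pow_le_pow_right (by norm_num) (by omega)
        rw [pow_succ]; omega
      have e7 : (2 * w + 1) * (w + 1) ≤ 2 ^ (2 * α) := by
        calc (2 * w + 1) * (w + 1) ≤ 2 ^ α * 2 ^ α := Nat.mul_le_mul (by omega) (by omega)
          _ = 2 ^ (2 * α) := by rw [← pow_add]; congr 1; ring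
      calc 2 ^ 8 * (2 ^ μ * ((2 * a * 2 ^ μ + a + 2) * ((2 * w + 1) * (w + 1))))
          ≤ 2 ^ 8 * (2 ^ μ * (2 ^ (μ + α + 1) * 2 ^ (2 * α))) :=
            Nat.mul_le_mul_left _ (Nat.mul_le_mul_left _ (Nat.mul_le_mul e3 e7))
        _ = 2 ^ (2 * μ + 3 * α + 9) := by rw [← pow_add, ← pow_add, ← pow_add]; congr 1; ring
    have h3 := hts (2 ^ μ) (2 * μ + 3 * α + 9) _ Nat.one_le_two_pow hsz (by omega) h2
    refine hm _ _ _ _ ?_ ?_ h3
    · rw [← pow_mul]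
      exact Nat.pow_le_pow_right (by norm_num) (by omega)
    · calc 2 ^ A2 * 2 ^ μ * (2 ^ (2 * μ + 3 * α + 9)) ^ B2 *
            (2 ^ (A * (μ + α) + B * (α + 1) ^ 2) + 1)
          ≤ 2 ^ A2 * 2 ^ μ * (2 ^ (2 * μ + 3 * α + 9)) ^ B2 *
            2 ^ (A * (μ + α) + B * (α + 1) ^ 2 + 1) := Nat.mul_le_mul_left _ (pow_two_double _)
        _ = 2 ^ (A2 + μ + (2 * μ + 3 * α + 9) * B2 + (A * (μ + α) + B * (α + 1) ^ 2 + 1)) := by
            rw [← pow_mul, ← pow_add, ← pow_add, ← pow_add]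
        _ ≤ 2 ^ (A * l + B * (α + 1) ^ 2) := by
            apply Nat.pow_le_pow_right (by norm_num)
            -- costs: `4 (μ + α) ≤ 3 l`
            have c1 : 4 * (μ + α) ≤ 3 * l := by omega
            have c2 : A * (μ + α) = (A2 + 12 * B2 + 3) * (4 * (μ + α)) := by rw [hA]; ring
            have c3 : A * (μ + α) ≤ (A2 + 12 * B2 + 3) * (3 * l) := by
              rw [c2]; exact Nat.mul_le_mul_left _ c1
            have c4 : A * l = (A2 + 12 * B2 + 3) * (3 * l) + (A2 + 12 * B2 + 3) * l := by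
              rw [hA]; ring
            have c5 : (2 * μ + 3 * α + 9) * B2 ≤ 12 * l * B2 :=
              Nat.mul_le_mul_right _ (by omega)
            have c6 : A2 ≤ A2 * l := Nat.le_mul_of_pos_right _ (by omega)
            have c7 : (A2 + 12 * B2 + 3) * l = A2 * l + 12 * l * B2 + 3 * l := by ring
            omega

end

end Vale.Agent.P318.H505
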