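import Vale.Agent.P318.H283.PDef
import Vale.Agent.P318.H505.Rec

/-!
# P318, g(n) ≥ (log n)^c: from condensers of `F_2^d` to all spaces; monotonicity of `CodeP`
-/

open Finset

namespace Vale.Agent.P318.H505

open Vale.Agent.P318.H937 (push sz Lossless)
open Vale.Agent.P318.H283

/-- every space of dimension at most `d` embeds in `F_2^d` -/
theorem exists_embed (Y : Type) [AddCommGroup Y] [Module (ZMod 2) Y] [Fintype Y] (d : ℕ)
    (hY : Module.finrank (ZMod 2) Y ≤ d) :
    ∃ f : Y →ₗ[ZMod 2] (Fin d → ZMod 2), Function.Injective f := by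
  let b := Module.finBasis (ZMod 2) Y
  refine ⟨{ toFun := fun y i => if hi : i.1 < Module.finrank (ZMod 2) Y then
              b.repr y ⟨i.1, hi⟩ else 0
            map_add' := ?_, map_smul' := ?_ }, ?_⟩
  · intro x y
    funext i
    by_cases hi : i.1 < Module.finrank (ZMod 2) Y
    · simp [hi]
    · simp [hi]
  · intro c x
    funext i
    by_cases hi : i.1 < Module.finrank (ZMod 2) Y
    · simp [hi]
    · simp [hi]
  · intro x y hxy
    apply b.repr.injective
    ext i
    have h1 := congrFun hxy ⟨i.1, lt_of_lt_of_le i.2 hY⟩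
    simpa using h1

/-- condensers of `F_2^d` give condensers of all spaces of dimension at most `d` -/
theorem hasCond_of {a W0 d q : ℕ} {e : ℝ}
    (h : ∃ E : Fin q → ((Fin d → ZMod 2) →ₗ[ZMod 2] (Fin a → ZMod 2)),
      ∀ (J L : Type) [Fintype J] [DecidableEq J] [Fintype L] [DecidableEq L],
        Lossless univ (fun (z : Fin q) (p : (J → Fin d → ZMod 2) × L) =>
          ((fun i => E z (p.1 i)), p.2)) W0 e) : HasCond a W0 d q e := by
  obtain ⟨E, hE⟩ := h
  intro Y _ _ _ _ hY
  obtain ⟨f, hf⟩ := exists_embed Y d hY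
  refine ⟨fun z => (E z).comp f, fun J L _ _ _ _ => ?_⟩
  refine Lossless.comap (hE J L) (fun p => ((fun i => f (p.1 i)), p.2)) ?_ (fun p => p) ?_
  · intro p p' hp
    have h1 := congrArg Prod.fst hp
    have h2 := congrArg Prod.snd hp
    exact Prod.ext (funext fun i => hf (congrFun h1 i)) h2
  · intro c z
    rfl

/-- losslessness is monotone in the loss -/
theorem lossless_mono {Sd X X' : Type} [DecidableEq X'] {S : Finset Sd} {T : Sd → X → X'}
    {W W' : ℕ} {e e' : ℝ} (h : Lossless S T W e) (hW : W' ≤ W) (he : e ≤ e') :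
    Lossless S T W' e' := by
  intro U hU
  refine le_trans ?_ (h U (hU.trans hW))
  have : (0 : ℝ) ≤ (S.card : ℝ) * U.card := by positivity
  nlinarith

theorem HasCond.mono {a W0 d d' q : ℕ} {e e' : ℝ} (h : HasCond a W0 d q e) (hd : d' ≤ d)
    (he : e ≤ e') : HasCond a W0 d' q e' := by
  intro Y _ _ _ _ hY
  obtain ⟨E, hE⟩ := h Y (hY.trans hd)
  exact ⟨E, fun J L _ _ _ _ => lossless_mono (hE J L) le_rfl he⟩

theorem mono_codeP (a D W0 h : ℕ) : Mono (CodeP a D W0 h) := by
  intro d d' N N' hd hN hP Y _ _ _ _ hY κ _ R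
  obtain ⟨ι, _, T, hT, h2⟩ := hP Y (hY.trans hd) κ R
  exact ⟨ι, _, T, hT.trans (Nat.mul_le_mul_right _ hN), h2⟩

/-- The size condition of the recursion bounds the loss of the condensers. -/
theorem loss_le {d w j K : ℕ} (h : K * ((d + 2) * ((2 * w + 1) * (w + 1))) ≤ 2 ^ j) :
    (K : ℝ) * ((2 * w + 1) * ((d + 2) * (w + 1)) / 2 ^ j) ≤ 1 := by
  have h1 : ((K * ((d + 2) * ((2 * w + 1) * (w + 1))) : ℕ) : ℝ) ≤ ((2 ^ j : ℕ) : ℝ) := by
    exact_mod_cast h
  push_cast at h1
  rw [← mul_div_assoc, div_le_one (by positivity)]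
  linarith

end Vale.Agent.P318.H505
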