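import Vale.Agent.P318.H283.DSum
import Vale.Agent.P318.H986.SpecCond
import Vale.Agent.P318.H505.Inst

/-!
# P318, g(n) ≥ (log n)^c: the direct-sum recursion for `CodeP`
-/

open Finset

namespace Vale.Agent.P318.H505

open Vale.Agent.P318.H937 (push sz Lossless)
open Vale.Agent.P318.H283

/-- 283's direct-sum step in the form of the recursion -/
theorem dstep_inst {a D w h J : ℕ} (hJ : 2 * w + 2 * J ≤ a) (haD : a ≤ D)
    (hh : 2 ^ (2 * J + 3) ≤ h) : DStep (CodeP a D (2 ^ w) h) a w J 5 10 := by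
  intro c j N hsz hjJ hP
  have hj1 : 1 ≤ j := by
    rcases Nat.eq_zero_or_pos j with h0 | h0
    · subst h0
      have : 1 ≤ (c + 2 * a + 2) * ((2 * w + 1) * (w + 1)) := Nat.mul_pos (by omega) (by positivity)
      omega
    · exact h0
  have hc := H986.hasCond j w (2 * c + 2 * a) a hj1 (by omega)
  have hq1 : 1 ≤ 2 ^ (2 * j) := Nat.one_le_two_pow
  have hqJ : 2 ^ (2 * j) ≤ 2 ^ (2 * J) := Nat.pow_le_pow_right (by norm_num) (by omega)
  have hJ8 : 2 ^ (2 * J + 3) = 8 * 2 ^ (2 * J) := by rw [pow_add]; ring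
  have hJ1 : 1 ≤ 2 ^ (2 * J) := Nat.one_le_two_pow
  have he : (2 * (w : ℝ) + 1) * (((2 * c + 2 * a : ℕ) : ℝ) + 2) * (w + 1) / 2 ^ j ≤ 1 / 4 := by
    have h1 : 4 * ((2 * w + 1) * (2 * c + 2 * a + 2) * (w + 1)) ≤ 2 ^ j := by
      refine le_trans ?_ hsz
      calc 4 * ((2 * w + 1) * (2 * c + 2 * a + 2) * (w + 1))
          = 4 * (2 * c + 2 * a + 2) * ((2 * w + 1) * (w + 1)) := by ring
        _ ≤ (2 ^ 8 * (c + 2 * a + 2)) * ((2 * w + 1) * (w + 1)) :=
            Nat.mul_le_mul_right _ (by omega)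
        _ = _ := by ring
    have h2 : ((4 * ((2 * w + 1) * (2 * c + 2 * a + 2) * (w + 1)) : ℕ) : ℝ) ≤
        ((2 ^ j : ℕ) : ℝ) := by exact_mod_cast h1
    push_cast at h2 ⊢
    rw [div_le_iff₀ (by positivity)]
    linarith
  have hP' : CodeP a (D) (2 ^ w) h (c + a) N := mono_codeP a D (2 ^ w) h _ _ _ _ (by omega) le_rfl hP
  have h3 := dsum_step (c := c) (N := N) hc (by omega) (by omega) (by
      refine le_trans (le_of_eq ?_) he
      ring) hq1 haD (by omega) (by omega) hP'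
  refine mono_codeP a D (2 ^ w) h _ _ _ _ le_rfl ?_ h3
  set q := 2 ^ (2 * j) with hq
  have e1 : (2 ^ j) ^ 10 = q ^ 5 := by rw [hq, ← pow_mul, ← pow_mul]; congr 1; ring
  rw [e1]
  calc (4 * q ^ 3 * N * (1 + q) + q) * (1 + 2 * q)
      ≤ (4 * q ^ 3 * N * (2 * q) + q * q ^ 3) * (3 * q) := by
        apply Nat.mul_le_mul _ (by omega)
        apply Nat.add_le_add
        · exact Nat.mul_le_mul_left _ (by omega)
        · exact Nat.le_mul_of_pos_right _ (by positivity)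
    _ = 24 * q ^ 5 * N + 3 * q ^ 5 := by ring
    _ ≤ 32 * q ^ 5 * (N + 1) := by
        have : 32 * q ^ 5 * (N + 1) = 24 * q ^ 5 * N + 3 * q ^ 5 + (8 * q ^ 5 * N + 29 * q ^ 5) := by
          ring
        omega
    _ = 2 ^ 5 * q ^ 5 * (N + 1) := by norm_num

/-- **Direct sums only**: all spaces of dimension at most `2 ^ S`. -/
theorem codeP_dsum {a D w h J α S : ℕ} (hJ : 2 * w + 2 * J ≤ a) (haD : 4 * a + 1 ≤ D)
    (hh : 2 ^ (2 * J + 3) ≤ h) (ha : 3 * a ≤ 2 ^ α) (hS : α ≤ S) (hJS : S + 2 * α + 10 ≤ J) :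
    CodeP a D (2 ^ w) h (2 ^ S) (2 ^ ((10 * (S + 2 * α + 10) + 6) * S)) := by
  have h1 := rec_dsum_gen (P := CodeP a D (2 ^ w) h) (A1 := 5) (B1 := 10) (mono_codeP _ _ _ _)
    (code_base a D (2 ^ w) h D le_rfl) haD (dstep_inst hJ (by omega) hh) ha (by omega) (by omega)
    S hS hJS S le_rfl
  refine mono_codeP _ _ _ _ _ _ _ _ (Nat.le_add_right _ _) ?_ h1
  apply Nat.pow_le_pow_right (by norm_num)
  apply Nat.mul_le_mul_right
  omega

end Vale.Agent.P318.H505
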