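import Vale.Agent.P318.H505.DInst
import Vale.Agent.P318.H918.Comp

/-!
# P318, g(n) ≥ (log n)^c: small codes and condensers for the pair views (route A)
-/

open Finset

namespace Vale.Agent.P318.H505

open Vale.Agent.P318.H937 (push sz Lossless)
open Vale.Agent.P318.H283

/-- small codes for all spaces of dimension at most `2 ^ S`, in the form of `comp_exact` -/
theorem smallCode {a D w J α S : ℕ} (hJ : 2 * (w + (2 * J + 3)) + 2 * J ≤ a)
    (haD : 4 * a + 1 ≤ D) (ha : 3 * a ≤ 2 ^ α) (hS : α ≤ S) (hJS : S + 2 * α + 10 ≤ J) (r : ℕ)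
    (hr : r ≤ 2 ^ S) :
    H918.SmallCode a D (2 ^ w) (Fin r → ZMod 2) (2 ^ ((10 * (S + 2 * α + 10) + 6) * S)) := by
  have h1 := codeP_dsum (a := a) (D := D) (w := w + (2 * J + 3)) (h := 2 ^ (2 * J + 3)) (J := J)
    (α := α) (S := S) hJ haD le_rfl ha hS hJS
  have h2 := h1 (Fin r → ZMod 2) (by rw [Module.finrank_pi, Fintype.card_fin]; exact hr)
  intro κ _ R
  obtain ⟨ι, i1, T, h3, h4⟩ := h2 κ R
  refine ⟨ι, i1, T, h3, fun W hW => h4 W ?_⟩
  calc 2 ^ (2 * J + 3) * W ≤ 2 ^ (2 * J + 3) * 2 ^ w := Nat.mul_le_mul_left _ (by omega)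
    _ = 2 ^ (w + (2 * J + 3)) := by rw [← pow_add]; congr 1; ring

/-- condensers for all spaces of dimension at most `2 ^ S`, in the form of `comp_exact` -/
theorem smallCond {a w j α S : ℕ} (hja : 2 * w + 2 * j ≤ a) (ha : 3 * a ≤ 2 ^ α) (ha2 : 2 ≤ a)
    (hj : S + 2 * α + 5 ≤ j) (r : ℕ) (hr : r ≤ 2 ^ S) :
    ∃ E : Fin (2 ^ (2 * j)) → ((Fin r → ZMod 2) →ₗ[ZMod 2] (Fin a → ZMod 2)),
      Lossless univ (fun z x => E z x) (2 ^ w) (1 / 4) := by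
  have h1 := H986.hasCond j w r a (by omega) hja
  obtain ⟨E, hE⟩ := h1 (Fin r → ZMod 2) (by rw [Module.finrank_pi, Fintype.card_fin])
  refine ⟨E, lossless_mono hE.single le_rfl ?_⟩
  have h2 : 4 * ((2 * w + 1) * ((r + 2) * (w + 1))) ≤ 2 ^ j := by
    have e1 : 2 * w + 1 ≤ 2 ^ α := by omega
    have e2 : w + 1 ≤ 2 ^ α := by omega
    have e3 : r + 2 ≤ 2 ^ (S + 2) := by
      have h5 : 2 ^ (S + 2) = 4 * 2 ^ S := by rw [pow_add]; ring
      have h6 : 1 ≤ 2 ^ S := Nat.one_le_two_pow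
      omega
    calc 4 * ((2 * w + 1) * ((r + 2) * (w + 1))) ≤ 2 ^ 2 * (2 ^ α * (2 ^ (S + 2) * 2 ^ α)) :=
          Nat.mul_le_mul (by norm_num) (Nat.mul_le_mul e1 (Nat.mul_le_mul e3 e2))
      _ = 2 ^ (S + 2 * α + 4) := by rw [← pow_add, ← pow_add, ← pow_add]; congr 1; ring
      _ ≤ 2 ^ j := Nat.pow_le_pow_right (by norm_num) (by omega)
  have h3 : ((4 * ((2 * w + 1) * ((r + 2) * (w + 1))) : ℕ) : ℝ) ≤ ((2 ^ j : ℕ) : ℝ) := by
    exact_mod_cast h2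
  push_cast at h3
  rw [div_le_iff₀ (by positivity)]
  linarith

end Vale.Agent.P318.H505
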