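import Vale.Agent.P318.H460.Numbers

/-!
# P318, g(n) ≥ (log n)^c: the numbers of the tree (route A)
-/

open Filter

namespace Vale.Agent.P318.H505

open Vale.Agent.P318.H460

/-- The numbers of the tree: `m' = c ℓ`, `e = 7 ℓ + 200`, and a bound `2 ^ S` for the dimensions
of the pair views such that the direct-sum recursion costs at most `2 ^ ℓ`; `a ≤ C1 ℓ`. -/
structure TreeNum (c C1 ℓ : ℕ) where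
  n : ℕ
  Lv : ℕ
  eB : ℕ
  eD : ℕ
  N0 : ℕ
  S : ℕ
  α : ℕ
  hℓ : 100000 ≤ ℓ
  hn : 2 ≤ n
  hLv : 1 ≤ Lv
  hmen : (c * ℓ) ^ 2 * (7 * ℓ + 200) ≤ n
  heBD : eB + eD = 7 * ℓ + 200
  hN0 : 0 < N0
  hD : 300 * (n + 1) * ((2 ^ Lv - 1) + 1) * ((2 * (c * ℓ) + 1) * (n * (c * ℓ))) < 2 ^ eD
  hnD : n ≤ 2 ^ eD
  hN0' : (c * ℓ * (7 * ℓ + 200)) ^ (2 ^ Lv) * (2 ^ eB * 2 ^ eD) < 2 * ((2 ^ Lv - 1) * n) * N0
  hMv : (((2 ^ Lv - 1) + 1) ^ 2 * (N0 * ((2 ^ Lv - 1) + 1) + 1) *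
    (2 ^ eD) ^ (2 ^ Lv - 1)) ^ 2 ≤ 2 ^ (100 * ℓ + 1602)
  hp : (4 * (((2 ^ Lv - 1 : ℕ) : ℝ) * n)) / ((2 ^ eB : ℕ) * (2 ^ eD : ℕ)) ≤
    (1 / 2 : ℝ) ^ (6 * ℓ + 81)
  hκ1 : 2 ^ (2 * ℓ + 30) ≤ (c * ℓ * (7 * ℓ + 200)) ^ (2 ^ Lv)
  hκ2 : (c * ℓ * (7 * ℓ + 200)) ^ (2 ^ Lv) ≤ 2 ^ (4 * ℓ + 60)
  hS : 2 * (c * ℓ * (7 * ℓ + 200)) ^ (2 * Lv + 2) ≤ 2 ^ S
  hα : 3 * (C1 * ℓ) ≤ 2 ^ α
  hαS : α ≤ S
  hSℓ : (10 * (S + 2 * α + 10) + 6) * S ≤ ℓ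
  hJℓ : S + 2 * α + 10 ≤ ℓ

/-- the loss condition -/
lemma loss_lt' (mp m n n1 eD : ℕ) (hn1lo : 100000 * mp ≤ n1) (hmp : 1 ≤ mp) (hnn1 : n ≤ n1 ^ 2)
    (hmn1 : m ≤ n1) (hD1 : n1 ^ 8 ≤ 2 ^ eD) :
    300 * (n + 1) * m * ((2 * mp + 1) * (n * mp)) < 2 ^ eD := by
  have hpos : 1 ≤ n1 := by omega
  have h1 : n + 1 ≤ 2 * n1 ^ 2 := by
    have : 1 ≤ n1 ^ 2 := Nat.one_le_pow _ _ hpos
    omega
  have h2 : 2 * mp + 1 ≤ 3 * n1 := by omega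
  have h3 : n * mp ≤ n1 ^ 2 * n1 := Nat.mul_le_mul hnn1 (by omega)
  calc 300 * (n + 1) * m * ((2 * mp + 1) * (n * mp))
      ≤ 300 * (2 * n1 ^ 2) * n1 * ((3 * n1) * (n1 ^ 2 * n1)) :=
        Nat.mul_le_mul (Nat.mul_le_mul (Nat.mul_le_mul_left _ h1) hmn1) (Nat.mul_le_mul h2 h3)
    _ = 1800 * n1 ^ 7 := by ring
    _ < n1 * n1 ^ 7 := Nat.mul_lt_mul_of_pos_right (by omega) (by positivity)
    _ = n1 ^ 8 := by ring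
    _ ≤ 2 ^ eD := hD1

/-- powers of the logarithm are eventually small -/
lemma ev_log (K k : ℕ) : ∀ᶠ ℓ : ℕ in atTop, K * (Nat.log 2 ℓ) ^ k ≤ ℓ := by
  obtain ⟨f0, hf0⟩ := eventually_atTop.1 (poly_le_two_pow K k)
  filter_upwards [eventually_ge_atTop (2 ^ f0)] with ℓ hℓ
  have h1 : f0 ≤ Nat.log 2 ℓ := Nat.le_log_of_pow_le (by norm_num) hℓ
  have h0 : ℓ ≠ 0 := by
    have : 0 < 2 ^ f0 := by positivity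
    omega
  exact (hf0 _ h1).trans (Nat.pow_log_le_self 2 h0)

lemma ev_n1 (c : ℕ) : ∀ᶠ ℓ : ℕ in atTop, (c * ℓ * (7 * ℓ + 200)) ^ 20 ≤ 2 ^ ℓ := by
  obtain ⟨C, hC⟩ : ∃ C, C = (207 * c) ^ 20 := ⟨_, rfl⟩
  filter_upwards [eventually_ge_atTop 1, poly_le_two_pow C 40] with ℓ hℓ hpoly
  refine le_trans ?_ hpoly
  have h : c * ℓ * (7 * ℓ + 200) ≤ 207 * c * ℓ ^ 2 := by
    have h1 : 7 * ℓ + 200 ≤ 207 * ℓ := by omega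
    calc c * ℓ * (7 * ℓ + 200) ≤ c * ℓ * (207 * ℓ) := Nat.mul_le_mul_left _ h1
      _ = 207 * c * ℓ ^ 2 := by ring
  refine (Nat.pow_le_pow_left h 20).trans (le_of_eq ?_)
  rw [mul_pow, ← pow_mul, hC]

/-- the logarithmic part -/
lemma log_part {C1 ℓ n1 Lv : ℕ} (hℓ : 100000 ≤ ℓ) (hℓC1 : 3 * C1 ≤ ℓ)
    (hlog : 10 ^ 6 * (Nat.log 2 ℓ) ^ 4 ≤ ℓ) (hn1up3 : n1 ≤ ℓ ^ 3) (hmB : 2 ^ Lv ≤ 4 * ℓ + 60) :
    ∃ S α, 2 * n1 ^ (2 * Lv + 2) ≤ 2 ^ S ∧ 3 * (C1 * ℓ) ≤ 2 ^ α ∧ α ≤ S ∧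
      (10 * (S + 2 * α + 10) + 6) * S ≤ ℓ ∧ S + 2 * α + 10 ≤ ℓ := by
  obtain ⟨L, hL⟩ : ∃ L, L = Nat.log 2 ℓ := ⟨_, rfl⟩
  rw [← hL] at hlog
  have hL1 : 1 ≤ L := by rw [hL]; exact Nat.le_log_of_pow_le (by norm_num) (by omega)
  have hℓL : ℓ ≤ 2 ^ (L + 1) := by
    have h1 : ℓ < 2 ^ (L + 1) := by rw [hL]; exact Nat.lt_pow_succ_log_self (by norm_num) _
    exact h1.le
  have hn1L : n1 ≤ 2 ^ (3 * (L + 1)) := by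
    calc n1 ≤ ℓ ^ 3 := hn1up3
      _ ≤ (2 ^ (L + 1)) ^ 3 := Nat.pow_le_pow_left hℓL _
      _ = 2 ^ (3 * (L + 1)) := by rw [← pow_mul]; exact pe (by ring)
  have hLvL : Lv ≤ 2 * (L + 1) := by
    have h1 : 2 ^ Lv ≤ 2 ^ (2 * (L + 1)) := by
      calc 2 ^ Lv ≤ 4 * ℓ + 60 := hmB
        _ ≤ ℓ * ℓ := by
          have : 5 * ℓ ≤ ℓ * ℓ := Nat.mul_le_mul_right _ (by omega)
          omega
        _ ≤ 2 ^ (L + 1) * 2 ^ (L + 1) := Nat.mul_le_mul hℓL hℓL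
        _ = 2 ^ (2 * (L + 1)) := by rw [← pow_add]; exact pe (by ring)
    exact (Nat.pow_le_pow_iff_right (by norm_num)).1 h1
  have hLL : L ≤ L ^ 2 := Nat.le_self_pow (by norm_num) L
  have hL2 : 1 ≤ L ^ 2 := Nat.one_le_pow _ _ hL1
  obtain ⟨S, hSdef⟩ : ∃ S, S = 3 * (L + 1) * (4 * (L + 1) + 2) + 1 := ⟨_, rfl⟩
  have hS1 : S = 12 * L ^ 2 + 30 * L + 19 := by rw [hSdef]; ring
  have hS2 : S ≤ 61 * L ^ 2 := by omega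
  refine ⟨S, 2 * (L + 1), ?_, ?_, by omega, ?_, ?_⟩
  · calc 2 * n1 ^ (2 * Lv + 2) ≤ 2 * (2 ^ (3 * (L + 1))) ^ (2 * Lv + 2) :=
          Nat.mul_le_mul_left _ (Nat.pow_le_pow_left hn1L _)
      _ ≤ 2 * (2 ^ (3 * (L + 1))) ^ (4 * (L + 1) + 2) :=
          Nat.mul_le_mul_left _ (Nat.pow_le_pow_right (by positivity) (by omega))
      _ = 2 ^ S := by rw [← pow_mul, hSdef, pow_succ]; ring
  · calc 3 * (C1 * ℓ) = 3 * C1 * ℓ := by ring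
      _ ≤ ℓ * ℓ := Nat.mul_le_mul_right _ hℓC1
      _ ≤ 2 ^ (L + 1) * 2 ^ (L + 1) := Nat.mul_le_mul hℓL hℓL
      _ = 2 ^ (2 * (L + 1)) := by rw [← pow_add]; exact pe (by ring)
  · calc (10 * (S + 2 * (2 * (L + 1)) + 10) + 6) * S ≤ (796 * L ^ 2) * (61 * L ^ 2) :=
          Nat.mul_le_mul (by omega) hS2
      _ = 48556 * L ^ 4 := by ring
      _ ≤ 10 ^ 6 * L ^ 4 := Nat.mul_le_mul_right _ (by norm_num)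
      _ ≤ ℓ := hlog
  · have h4 : L ^ 2 ≤ L ^ 4 := Nat.pow_le_pow_right hL1 (by norm_num)
    calc S + 2 * (2 * (L + 1)) + 10 ≤ 79 * L ^ 2 := by omega
      _ ≤ 10 ^ 6 * L ^ 4 := Nat.mul_le_mul (by norm_num) h4
      _ ≤ ℓ := hlog

/-- **the numbers of the tree** -/
theorem treeNum (c C1 : ℕ) (hc : 1 ≤ c) : ∀ᶠ ℓ : ℕ in atTop, Nonempty (TreeNum c C1 ℓ) := by
  filter_upwards [eventually_ge_atTop 100000, eventually_ge_atTop (207 * c),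
    eventually_ge_atTop (3 * C1), ev_n1 c, ev_log (10 ^ 6) 4] with ℓ hℓ hℓc hℓC1 hn120' hlog
  obtain ⟨mp, hmp⟩ : ∃ mp, c * ℓ = mp := ⟨_, rfl⟩
  obtain ⟨n1, hn1eq⟩ : ∃ n1, c * ℓ * (7 * ℓ + 200) = n1 := ⟨_, rfl⟩
  rw [hn1eq] at hn120'
  have hmp1 : ℓ ≤ mp := by rw [← hmp]; exact Nat.le_mul_of_pos_left _ hc
  have hn1lo : 100000 * mp ≤ n1 := by
    rw [← hn1eq, hmp, mul_comm mp]; exact Nat.mul_le_mul_right _ (by omega)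
  have hn1up3 : n1 ≤ ℓ ^ 3 := by
    have h1 : n1 ≤ 207 * c * ℓ ^ 2 := by
      rw [← hn1eq]
      calc c * ℓ * (7 * ℓ + 200) ≤ c * ℓ * (207 * ℓ) := Nat.mul_le_mul_left _ (by omega)
        _ = 207 * c * ℓ ^ 2 := by ring
    calc n1 ≤ 207 * c * ℓ ^ 2 := h1
      _ ≤ ℓ * ℓ ^ 2 := Nat.mul_le_mul_right _ hℓc
      _ = ℓ ^ 3 := by ring
  have hpos : 1 ≤ n1 := by omega
  have hpw : ∀ i ≤ 20, n1 ^ i ≤ 2 ^ ℓ := fun i hi =>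
    (Nat.pow_le_pow_right hpos hi).trans hn120'
  have h2n : 2 ≤ n1 := by omega
  have h2B : n1 ^ 2 ≤ 2 ^ (4 * ℓ + 60) := (hpw 2 (by norm_num)).trans
    (Nat.pow_le_pow_right (by norm_num) (by omega))
  obtain ⟨Lv, hLv1, hκB, hBκ, hmB⟩ := exists_depth n1 (4 * ℓ + 60) h2n h2B
  obtain ⟨eD, hD1, hD3⟩ := exists_block n1 h2n
  obtain ⟨m, hm⟩ : ∃ m, 2 ^ Lv = m := ⟨_, rfl⟩
  rw [hm] at hκB hBκ
  obtain ⟨κ, hκ⟩ : ∃ κ, n1 ^ m = κ := ⟨_, rfl⟩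
  rw [hκ] at hκB hBκ
  have hκlo : 2 ^ (2 * ℓ + 30) < κ := by
    have : (2 ^ (2 * ℓ + 30)) ^ 2 < κ ^ 2 := by
      rw [← pow_mul, show (2 * ℓ + 30) * 2 = 4 * ℓ + 60 by omega]; exact hBκ
    exact lt_of_pow_lt_pow_left₀ 2 (Nat.zero_le _) this
  have hmB' : m ≤ 4 * ℓ + 60 := by rw [← hm]; exact hmB
  have hmn1 : m ≤ n1 := by omega
  have hm2 : 2 ≤ m := by
    rw [← hm]
    calc 2 = 2 ^ 1 := rfl
      _ ≤ 2 ^ Lv := Nat.pow_le_pow_right (by norm_num) hLv1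
  have heDℓ : eD ≤ ℓ := by
    have h1 : 2 ^ eD ≤ 2 ^ ℓ := hD3.trans (hpw 9 (by norm_num))
    exact (Nat.pow_le_pow_iff_right (by norm_num)).1 h1
  obtain ⟨N0, hN0⟩ : ∃ N0, N0 = κ * 2 ^ (7 * ℓ + 200) := ⟨_, rfl⟩
  have hκpos : 0 < κ := lt_of_le_of_lt (Nat.zero_le _) hκlo
  have hN0pos : 0 < N0 := by rw [hN0]; exact Nat.mul_pos hκpos (Nat.two_pow_pos _)
  have hmℓ : m ≤ 2 ^ ℓ := hmn1.trans (by simpa using hpw 1 (by norm_num))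
  have hmsub : m - 1 + 1 = m := by omega
  have hMvup := Mv_le ℓ m κ n1 eD N0 hκ.symm hκB hD3 hN0 hmℓ
  obtain ⟨n, hn⟩ : ∃ n, n = mp ^ 2 * (7 * ℓ + 200) := ⟨_, rfl⟩
  have hnn1 : n ≤ n1 ^ 2 := by
    rw [hn, ← hn1eq, hmp]
    calc mp ^ 2 * (7 * ℓ + 200) ≤ mp ^ 2 * (7 * ℓ + 200) ^ 2 :=
          Nat.mul_le_mul_left _ (Nat.le_self_pow (n := 2) (by norm_num) _)
      _ = (mp * (7 * ℓ + 200)) ^ 2 := by ring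
  have hn2 : 2 ≤ n := by
    rw [hn]
    have h1 : 1 ≤ mp ^ 2 := Nat.one_le_pow _ _ (by omega)
    calc 2 ≤ 7 * ℓ + 200 := by omega
      _ = 1 * (7 * ℓ + 200) := (one_mul _).symm
      _ ≤ _ := Nat.mul_le_mul_right _ h1
  have hloss := loss_lt' mp m n n1 eD hn1lo (by omega) hnn1 hmn1 hD1
  have hnD : n ≤ 2 ^ eD := hnn1.trans ((Nat.pow_le_pow_right hpos (by norm_num)).trans hD1)
  obtain ⟨S, α, hS, hα, hSL, hSℓ, hJℓ⟩ := log_part hℓ hℓC1 hlog hn1up3 hmB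
  refine ⟨⟨n, Lv, 7 * ℓ + 200 - eD, eD, N0, S, α, hℓ, hn2, hLv1, ?_, by omega, hN0pos,
    ?_, hnD, ?_, ?_, ?_, ?_, ?_, ?_, hα, hSL, hSℓ, hJℓ⟩⟩
  · rw [hmp]; exact hn.ge
  · rw [hm, hmsub, hmp]; exact hloss
  · rw [hm, hn1eq, hκ, ← pow_add, show 7 * ℓ + 200 - eD + eD = 7 * ℓ + 200 by omega, ← hN0]
    have h1 : 1 ≤ (m - 1) * n := Nat.mul_pos (by omega) (by omega)
    calc N0 < 2 * N0 := by omega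
      _ = 2 * 1 * N0 := by ring
      _ ≤ 2 * ((m - 1) * n) * N0 := Nat.mul_le_mul_right _ (Nat.mul_le_mul_left _ h1)
  · rw [hm, hmsub]; exact hMvup
  · have hcoll := coll_le ℓ eD ((m - 1) * n) heDℓ (by
      calc (m - 1) * n ≤ n1 * n1 ^ 2 := Nat.mul_le_mul ((Nat.sub_le _ _).trans hmn1) hnn1
        _ = n1 ^ 3 := by ring
        _ ≤ 2 ^ ℓ := hpw 3 (by norm_num))
    rw [hm]
    have h9 : (1 / 2 : ℝ) ^ (6 * ℓ + 80) = 2 * (1 / 2 : ℝ) ^ (6 * ℓ + 81) := by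
      rw [show 6 * ℓ + 81 = (6 * ℓ + 80) + 1 by ring, pow_succ]; ring
    rw [h9] at hcoll
    push_cast at hcoll ⊢
    linarith
  · rw [hn1eq, hm, hκ]; exact hκlo.le
  · rw [hn1eq, hm, hκ]; exact hκB
  · rw [hn1eq]; exact hS

end Vale.Agent.P318.H505
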